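import Vale.Agent.P236.H68.DdA

/-!
P236: in `Ext` over the mod 3 dual Steenrod algebra `b_j ^ 3 = 0` for `j ≥ 2`,
`h_i b_(i+1) ^ 2 = 0`, and the Toda obstruction `h_0 b_j ^ 3` vanishes if and only if `j ≥ 1`.
-/

namespace Vale.Agent.Results.P236.TodaObstruction

open Vale.Agent.P236.H68

/-- The cobar complex of the mod 3 dual Steenrod algebra is a complex, `h_i` and `b_j` are
cocycles, `b_j ^ 3` is a coboundary for `j ≥ 2`, `h_i b_(i+1) ^ 2` is a coboundary, and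
`h_0 b_j ^ 3` is a coboundary if and only if `j ≥ 1`. -/
theorem result :
    (∀ (n : ℕ) (z : CobA n), IsCyc (n + 1) (dA n z)) ∧
    (∀ i : ℕ, IsCyc 1 (toA (h i))) ∧
    (∀ j : ℕ, IsCyc 2 (toA (b j))) ∧
    (∀ j : ℕ, 2 ≤ j → IsCob 5 (toA (bbb j))) ∧
    (∀ i : ℕ, IsCob 4 (toA (hbb i))) ∧
    (∀ j : ℕ, IsCob 6 (toA (toda j)) ↔ 1 ≤ j) := by
  refine ⟨dA_dA, dA_h, dA_b, cube_A, sq_A, fun j => ⟨fun hy => ?_, toda_A j⟩⟩
  by_contra hj
  obtain rfl : j = 0 := by omega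
  exact not_toda_zero_A hy

end Vale.Agent.Results.P236.TodaObstruction
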